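import Vale.Agent.P249.Dim.Basic

/-!
Independent samples with all sums within a factor `1 ± ε` of their means.
-/

namespace Vale.Agent.P249.Sparse

open Finset

/-- Some sequence of `m` samples has all sums close to the common mean. -/
lemma exists_sharp_sample {Ω P : Type*} [Fintype Ω] [Fintype P] (w : Ω → ℝ) (hw0 : ∀ ω, 0 ≤ w ω)
    (hw1 : ∑ ω, w ω = 1) (Z : P → Ω → ℝ) (hZ0 : ∀ q ω, 0 ≤ Z q ω) (hZ1 : ∀ q ω, Z q ω ≤ 1)
    (u : ℝ) (hu : ∀ q, ∑ ω, w ω * Z q ω = u) {ε : ℝ} (hε : 0 < ε) (hε1 : ε ≤ 1) (m : ℕ)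
    (hcard : 2 * (Fintype.card P : ℝ) * Real.exp (-(m * u * ε ^ 2 / 4)) < 1) :
    ∃ ω : Fin m → Ω, ∀ q, (1 - ε) * (m * u) ≤ ∑ i, Z q (ω i) ∧
      ∑ i, Z q (ω i) ≤ (1 + ε) * (m * u) := by
  classical
  set W : (Fin m → Ω) → ℝ := fun ω => ∏ i, w (ω i) with hW
  have hW0 : ∀ ω, 0 ≤ W ω := fun ω => Finset.prod_nonneg fun i _ => hw0 _
  have hW1 : ∑ ω, W ω = 1 := by rw [hW, ← Fintype.sum_pow, hw1, one_pow]
  set lam := ε / 2 with hlam
  set G : P → (Fin m → Ω) → ℝ := fun q ω =>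
    Real.exp (lam * (∑ i, Z q (ω i)) - lam * ((1 + ε) * (m * u))) +
      Real.exp (-lam * (∑ i, Z q (ω i)) + lam * ((1 - ε) * (m * u))) with hG
  have key : ∀ (g : Ω → ℝ) (c : ℝ), ∑ ω : Fin m → Ω, W ω * Real.exp (∑ i, g (ω i) + c) =
      (∑ ω, w ω * Real.exp (g ω)) ^ m * Real.exp c := by
    intro g c
    rw [Fintype.sum_pow, Finset.sum_mul]
    refine Finset.sum_congr rfl fun ω _ => ?_
    rw [Real.exp_add, Real.exp_sum, Finset.prod_mul_distrib, mul_assoc]
  have mom : ∀ (q : P) (l : ℝ), |l| ≤ 1 →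
      ∑ ω, w ω * Real.exp (l * Z q ω) ≤ Real.exp (l * u + l ^ 2 * u) := by
    intro q l hl
    calc ∑ ω, w ω * Real.exp (l * Z q ω)
        ≤ ∑ ω, (w ω + (l + l ^ 2) * (w ω * Z q ω)) := by
          refine Finset.sum_le_sum fun ω _ => ?_
          have hz : |l * Z q ω| ≤ 1 := by
            rw [abs_mul, abs_of_nonneg (hZ0 q ω)]
            exact mul_le_one₀ hl (hZ0 q ω) (hZ1 q ω)
          have h1 := Real.abs_exp_sub_one_sub_id_le hz
          have h2 := le_abs_self (Real.exp (l * Z q ω) - 1 - l * Z q ω)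
          have h3 : (l * Z q ω) ^ 2 ≤ l ^ 2 * Z q ω := by
            rw [mul_pow]
            exact mul_le_mul_of_nonneg_left (by nlinarith [hZ0 q ω, hZ1 q ω]) (sq_nonneg l)
          nlinarith [hw0 ω]
      _ = (l * u + l ^ 2 * u) + 1 := by
          rw [Finset.sum_add_distrib, hw1, ← Finset.mul_sum, hu q]; ring
      _ ≤ _ := Real.add_one_le_exp _
  have tail : ∀ (q : P) (l c : ℝ), |l| ≤ 1 → m * (l * u + l ^ 2 * u) + c ≤ -(m * u * ε ^ 2 / 4) →
      ∑ ω, W ω * Real.exp (l * (∑ i, Z q (ω i)) + c) ≤ Real.exp (-(m * u * ε ^ 2 / 4)) := by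
    intro q l c hl hc
    simp only [Finset.mul_sum]
    rw [key (fun ω => l * Z q ω) c]
    calc _ ≤ Real.exp (l * u + l ^ 2 * u) ^ m * Real.exp c := by
          refine mul_le_mul_of_nonneg_right (pow_le_pow_left₀ ?_ (mom q l hl) m) (Real.exp_pos _).le
          exact Finset.sum_nonneg fun ω _ => mul_nonneg (hw0 ω) (Real.exp_pos _).le
      _ = Real.exp (m * (l * u + l ^ 2 * u) + c) := by rw [← Real.exp_nat_mul, ← Real.exp_add]
      _ ≤ _ := Real.exp_le_exp.2 hc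
  have hl0 : |lam| ≤ 1 := by rw [abs_of_pos (by positivity)]; linarith
  have hsum : ∑ ω, W ω * ∑ q, G q ω < 1 := by
    refine lt_of_le_of_lt ?_ hcard
    simp only [Finset.mul_sum]
    rw [Finset.sum_comm]
    calc _ ≤ ∑ _q : P, 2 * Real.exp (-(m * u * ε ^ 2 / 4)) := Finset.sum_le_sum fun q _ => by
          simp only [hG, mul_add, Finset.sum_add_distrib, sub_eq_add_neg]
          have a := tail q lam (-(lam * ((1 + ε) * (m * u)))) hl0 (le_of_eq (by rw [hlam]; ring))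
          have b := tail q (-lam) (lam * ((1 - ε) * (m * u))) (by rwa [abs_neg])
            (le_of_eq (by rw [hlam]; ring))
          simp only [sub_eq_add_neg] at b
          linarith
      _ = _ := by simp; ring
  obtain ⟨ω, hω⟩ : ∃ ω, ∑ q, G q ω < 1 := by
    by_contra hcon
    push Not at hcon
    have : (1:ℝ) ≤ ∑ ω, W ω * ∑ q, G q ω := by
      rw [← hW1]
      exact Finset.sum_le_sum fun ω _ => le_mul_of_one_le_right (hW0 ω) (hcon ω)
    linarith
  refine ⟨ω, fun q => ?_⟩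
  have h4 : G q ω < 1 := lt_of_le_of_lt
    (Finset.single_le_sum (f := fun q => G q ω) (fun q _ => by positivity) (Finset.mem_univ q)) hω
  simp only [hG] at h4
  have h5 := Real.exp_pos (lam * (∑ i, Z q (ω i)) - lam * ((1 + ε) * (m * u)))
  have h6 := Real.exp_pos (-lam * (∑ i, Z q (ω i)) + lam * ((1 - ε) * (m * u)))
  have h7 : lam * (∑ i, Z q (ω i)) - lam * ((1 + ε) * (m * u)) < 0 :=
    Real.exp_lt_one_iff.1 (by linarith)
  have h8 : -lam * (∑ i, Z q (ω i)) + lam * ((1 - ε) * (m * u)) < 0 :=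
    Real.exp_lt_one_iff.1 (by linarith)
  have hlp : 0 < lam := by positivity
  constructor <;> nlinarith

end Vale.Agent.P249.Sparse
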