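import Vale.Agent.P249.Sparse.Hubs
import Vale.Agent.P249.Sparse.Sample

/-!
Coordinate sensitivities of a finite point set in `ℓ_p` and the sampling they allow.
-/

namespace Vale.Agent.P249.Sparse

open Finset Vale.Agent.P249.Dim

variable {ι κ : Type*} [Fintype ι] [Fintype κ] {p : ℝ}

/-- Weights of total at most `card ι * 2k * (k+1)` bound every coordinate of every difference. -/
lemma exists_sensitivity (hp : 1 ≤ p) (X : ι → κ → ℝ) {k : ℕ} (hk : 1 ≤ k)
    (hn : Fintype.card ι < 2 ^ k) :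
    ∃ μ : κ → ℝ, (∀ c, 0 ≤ μ c) ∧
      ∑ c, μ c ≤ ((Fintype.card ι * (2 * k) * (k + 1) : ℕ) : ℝ) ∧
      ∀ x y c, |X x c - X y c| ^ p ≤ (2 * ((k:ℝ) + 1)) ^ p * μ c * pw p (X x - X y) := by
  classical
  have hp0 : 0 < p := by linarith
  rcases isEmpty_or_nonempty ι with h | h
  · exact ⟨0, fun _ => le_rfl, by simp, fun x => isEmptyElim x⟩
  obtain ⟨x0⟩ := h
  obtain ⟨E, hEc, hE⟩ := exists_hubs hk hn (fun x y => nm p (X x - X y))
    (fun x y => nm_sub_comm _ _) (fun x y z => nm_sub_le hp _ _ _) k univ ⟨x0, mem_univ _⟩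
    (by rw [card_univ]; exact hn.le)
  set μ : κ → ℝ := fun c => ∑ g ∈ E, |X g.1 c - X g.2 c| ^ p / pw p (X g.1 - X g.2) with hμ
  have hμ0 : ∀ c, 0 ≤ μ c := fun c => sum_nonneg fun g _ =>
    div_nonneg (Real.rpow_nonneg (abs_nonneg _) _) (pw_nonneg _)
  refine ⟨μ, hμ0, ?_, fun x y c => ?_⟩
  · refine le_trans ?_ (Nat.cast_le.2 hEc)
    rw [hμ, sum_comm]
    calc _ ≤ ∑ _g ∈ E, (1:ℝ) := by
          refine sum_le_sum fun g _ => ?_
          rw [← sum_div]
          exact div_le_one_of_le₀ le_rfl (pw_nonneg _)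
      _ = _ := by simp
  have hb : ∀ g ∈ E, |X g.1 c - X g.2 c| ≤ μ c ^ (1 / p) * nm p (X g.1 - X g.2) := by
    intro g hg
    have h1 : |X g.1 c - X g.2 c| ^ p ≤ μ c * pw p (X g.1 - X g.2) := by
      rcases eq_or_lt_of_le (pw_nonneg (p := p) (X g.1 - X g.2)) with h | h
      · rw [← h, mul_zero, h]
        exact single_le_sum (f := fun c => |(X g.1 - X g.2) c| ^ p)
          (fun c _ => Real.rpow_nonneg (abs_nonneg _) _) (mem_univ c)
      · rw [← div_le_iff₀ h]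
        exact single_le_sum (f := fun g : ι × ι => |X g.1 c - X g.2 c| ^ p / pw p (X g.1 - X g.2))
          (fun g _ => div_nonneg (Real.rpow_nonneg (abs_nonneg _) _) (pw_nonneg _)) hg
    rw [← Real.rpow_le_rpow_iff (abs_nonneg _)
      (mul_nonneg (Real.rpow_nonneg (hμ0 c) _) (nm_nonneg _)) hp0,
      Real.mul_rpow (Real.rpow_nonneg (hμ0 c) _) (nm_nonneg _), ← Real.rpow_mul (hμ0 c), one_div,
      inv_mul_cancel₀ hp0.ne', Real.rpow_one, nm_rpow hp0]
    exact h1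
  obtain ⟨h, hx, hy, hxh, hyh⟩ := hE x y (nm p (X x - X y)) (nm_nonneg _) le_rfl 0 x (mem_univ x)
    (by simp [nm, pw, Real.zero_rpow hp0.ne', Real.zero_rpow (inv_ne_zero hp0.ne')]) le_rfl
  simp only [zero_add] at hxh hyh
  have hμp : 0 ≤ μ c ^ (1 / p) := Real.rpow_nonneg (hμ0 c) _
  have hK : 0 ≤ 2 * ((k:ℝ) + 1) := by positivity
  have h1 : |X x c - X y c| ≤ μ c ^ (1 / p) * (2 * ((k:ℝ) + 1) * nm p (X x - X y)) := by
    refine (abs_sub_le (X x c) (X h c) (X y c)).trans ?_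
    rw [abs_sub_comm (X h c)]
    refine (add_le_add (hb _ hx) (hb _ hy)).trans ?_
    rw [← mul_add]
    exact mul_le_mul_of_nonneg_left ((add_le_add hxh hyh).trans (le_of_eq (by ring))) hμp
  refine (Real.rpow_le_rpow (abs_nonneg _) h1 hp0.le).trans (le_of_eq ?_)
  rw [Real.mul_rpow hμp (mul_nonneg hK (nm_nonneg _)), Real.mul_rpow hK (nm_nonneg _), nm_rpow hp0,
    ← Real.rpow_mul (hμ0 c), one_div, inv_mul_cancel₀ hp0.ne', Real.rpow_one]
  ring

/-- Sampling coordinates with probability proportional to their sensitivities. -/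
lemma exists_coord_sample (hp : 0 < p) (X : ι → κ → ℝ) (hX : Function.Injective X) (ν : κ → ℝ)
    (hν : ∀ c, 0 < ν c) {K : ℝ} (hK : 0 < K)
    (hpair : ∀ x y c, |X x c - X y c| ^ p ≤ K * ν c * pw p (X x - X y))
    {e : ℝ} (he : 0 < e) (he1 : e ≤ 1) {S : ℝ} (hS : ∑ c, ν c = S) (hS0 : 0 < S) {d : ℕ}
    (hd : 0 < d) {k : ℕ} (hn : Fintype.card ι < 2 ^ k) (hdk : 12 * k * (K * S) ≤ d * e ^ 2) :
    ∃ (c : Fin d → κ) (a : Fin d → ℝ), ∀ x y,
      (1 - e) * pw p (X x - X y) ≤ pw p (fun j => a j * X x (c j) - a j * X y (c j)) ∧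
      pw p (fun j => a j * X x (c j) - a j * X y (c j)) ≤ (1 + e) * pw p (X x - X y) := by
  classical
  let P := {q : ι × ι // q.1 ≠ q.2}
  have hpos : ∀ q : P, 0 < pw p (X q.1.1 - X q.1.2) := fun q => by
    refine (pw_nonneg _).lt_of_ne fun h => q.2 (hX ?_)
    funext c
    have h2 := hpair q.1.1 q.1.2 c
    rw [← h, mul_zero] at h2
    have h3 := le_antisymm h2 (Real.rpow_nonneg (abs_nonneg _) p)
    rw [Real.rpow_eq_zero (abs_nonneg _) hp.ne', abs_eq_zero, sub_eq_zero] at h3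
    exact h3
  set Z : P → κ → ℝ := fun q c =>
    |X q.1.1 c - X q.1.2 c| ^ p / (K * ν c * pw p (X q.1.1 - X q.1.2)) with hZ
  have hden : ∀ (q : P) c, 0 < K * ν c * pw p (X q.1.1 - X q.1.2) := fun q c =>
    mul_pos (mul_pos hK (hν c)) (hpos q)
  have hKS : 0 < K * S := mul_pos hK hS0
  have hmean : ∀ q : P, ∑ c, ν c / S * Z q c = 1 / (K * S) := by
    intro q
    have h1 : ∀ c, ν c / S * Z q c =
        |(X q.1.1 - X q.1.2) c| ^ p / (K * S * pw p (X q.1.1 - X q.1.2)) := by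
      intro c
      have := (hν c).ne'; have := hS0.ne'; have := hK.ne'; have := (hpos q).ne'
      simp only [hZ, Pi.sub_apply]
      field_simp
    simp only [h1, ← sum_div]
    rw [show ∑ c, |(X q.1.1 - X q.1.2) c| ^ p = pw p (X q.1.1 - X q.1.2) from rfl, mul_comm (K * S),
      ← div_div, div_self (hpos q).ne']
  have hd0 : (0:ℝ) < d := by exact_mod_cast hd
  have hcard : 2 * (Fintype.card P : ℝ) * Real.exp (-(d * (1 / (K * S)) * e ^ 2 / 4)) < 1 := by
    refine lt_of_le_of_lt ?_ (card_pairs_exp (n := Fintype.card ι) (k := k) hn)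
    refine mul_le_mul (mul_le_mul_of_nonneg_left ?_ (by norm_num)) (Real.exp_le_exp.2 ?_)
      (Real.exp_pos _).le (by positivity)
    · exact_mod_cast (Fintype.card_subtype_le _).trans (le_of_eq (by simp))
    · rw [neg_le_neg_iff, le_div_iff₀ (by norm_num : (0:ℝ) < 4), mul_one_div,
        div_mul_eq_mul_div, le_div_iff₀ hKS]
      linarith
  obtain ⟨ω, hω⟩ := exists_sharp_sample (fun c => ν c / S) (fun c => div_nonneg (hν c).le hS0.le)
    (by rw [← sum_div, hS, div_self hS0.ne']) Z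
    (fun q c => div_nonneg (Real.rpow_nonneg (abs_nonneg _) _) (hden q c).le)
    (fun q c => div_le_one_of_le₀ (hpair _ _ c) (hden q c).le)
    (1 / (K * S)) hmean he he1 d hcard
  refine ⟨ω, fun j => (((d:ℝ) * (ν (ω j) / S)) ^ (1 / p))⁻¹, fun x y => ?_⟩
  by_cases hxy : x = y
  · subst hxy
    simp [pw, Real.zero_rpow hp.ne']
  have hF : pw p (fun j => (((d:ℝ) * (ν (ω j) / S)) ^ (1 / p))⁻¹ * X x (ω j) -
      (((d:ℝ) * (ν (ω j) / S)) ^ (1 / p))⁻¹ * X y (ω j)) =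
      pw p (X x - X y) * (K * S / d) * ∑ j, Z ⟨(x, y), hxy⟩ (ω j) := by
    rw [pw, mul_sum]
    refine sum_congr rfl fun j _ => ?_
    have := (hν (ω j)).ne'; have := hS0.ne'; have := hK.ne'; have := hd0.ne'
    have := (hpos ⟨(x, y), hxy⟩).ne'
    have hb : 0 < (d:ℝ) * (ν (ω j) / S) := mul_pos hd0 (div_pos (hν _) hS0)
    rw [← mul_sub, abs_mul, Real.mul_rpow (abs_nonneg _) (abs_nonneg _),
      abs_of_pos (inv_pos.2 (Real.rpow_pos_of_pos hb _)),
      Real.inv_rpow (Real.rpow_nonneg hb.le _), ← Real.rpow_mul hb.le, one_div,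
      inv_mul_cancel₀ hp.ne', Real.rpow_one]
    simp only [hZ]
    field_simp
  obtain ⟨hlo, hhi⟩ := hω ⟨(x, y), hxy⟩
  have hc : 0 ≤ pw p (X x - X y) * (K * S / d) := mul_nonneg (pw_nonneg _) (by positivity)
  have hdL : pw p (X x - X y) * (K * S / d) * ((d:ℝ) * (1 / (K * S))) = pw p (X x - X y) := by
    have := hd0.ne'; have := hKS.ne'
    field_simp
  have h1 := mul_le_mul_of_nonneg_left hlo hc
  have h2 := mul_le_mul_of_nonneg_left hhi hc
  rw [hF]
  constructor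
  · calc (1 - e) * pw p (X x - X y)
        = pw p (X x - X y) * (K * S / d) * ((1 - e) * ((d:ℝ) * (1 / (K * S)))) := by
          linear_combination -(1 - e) * hdL
      _ ≤ _ := h1
  · calc _ ≤ pw p (X x - X y) * (K * S / d) * ((1 + e) * ((d:ℝ) * (1 / (K * S)))) := h2
      _ = _ := by linear_combination (1 + e) * hdL

end Vale.Agent.P249.Sparse
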