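import Vale.Agent.P249.Dim.Basic
import Mathlib.Data.Finset.Card
import Mathlib.Data.Finset.Max

/-!
Nested hubs in a finite metric: every pair has a common hub at a logarithmic multiple of its
distance, and every point is joined to few hubs.
-/

namespace Vale.Agent.P249.Sparse

open Finset

variable {ι : Type*} [DecidableEq ι]

/-- Some set of at most `j` elements of `A` meets all but a geometric fraction of the sets. -/
lemma exists_hit {α : Type*} [DecidableEq α] (A : Finset ι) (hA : A.Nonempty) (S : α → Finset ι)
    (q : ℕ) :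
    ∀ (j : ℕ) (T : Finset α), (∀ a ∈ T, S a ⊆ A ∧ q ≤ (S a).card) →
      ∃ H : Finset ι, H ⊆ A ∧ H.card ≤ j ∧
        (((T.filter fun a => Disjoint (S a) H).card : ℝ) ≤
          Real.exp (-(q:ℝ) / A.card) ^ j * T.card) := by
  intro j
  induction j with
  | zero => intro T _; exact ⟨∅, empty_subset _, by simp, by simp⟩
  | succ j ih =>
    intro T hT
    obtain ⟨H, hHA, hHc, hH⟩ := ih T hT
    set U := T.filter fun a => Disjoint (S a) H with hU
    have hA0 : (0:ℝ) < A.card := by exact_mod_cast hA.card_pos
    obtain ⟨e, he, hmax⟩ := A.exists_max_image (fun e => (U.filter fun a => e ∈ S a).card) hA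
    refine ⟨insert e H, insert_subset he hHA, (card_insert_le _ _).trans (by omega), ?_⟩
    have hdc : U.card * q ≤ (U.filter fun a => e ∈ S a).card * A.card := by
      calc U.card * q = ∑ a ∈ U, q := by simp
        _ ≤ ∑ a ∈ U, (A.filter fun z => z ∈ S a).card := by
            refine sum_le_sum fun a ha => ?_
            have h := hT a (mem_filter.1 ha).1
            rw [filter_mem_eq_inter, inter_eq_right.2 h.1]
            exact h.2
        _ = ∑ z ∈ A, (U.filter fun a => z ∈ S a).card := by
            simp only [card_filter]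
            exact sum_comm
        _ ≤ ∑ z ∈ A, (U.filter fun a => e ∈ S a).card := sum_le_sum hmax
        _ = _ := by simp [mul_comm]
    have hsub : (T.filter fun a => Disjoint (S a) (insert e H)) =
        U.filter fun a => ¬ e ∈ S a := by
      ext a
      simp only [hU, mem_filter, disjoint_insert_right]
      tauto
    have hsplit := card_filter_add_card_filter_not (s := U) (fun a => e ∈ S a)
    rw [hsub]
    set b := (U.filter fun a => e ∈ S a).card with hb
    set c := (U.filter fun a => ¬ e ∈ S a).card with hc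
    have h1 : (b:ℝ) + c = U.card := by exact_mod_cast hsplit
    have h2 : (U.card : ℝ) * ((q:ℝ) / A.card) ≤ b := by
      rw [mul_div_assoc', div_le_iff₀ hA0]
      exact_mod_cast hdc
    have h3 : (c:ℝ) ≤ Real.exp (-(q:ℝ) / A.card) * U.card := by
      have h4 := Real.add_one_le_exp (-(q:ℝ) / A.card)
      have h5 := mul_le_mul_of_nonneg_right h4 (Nat.cast_nonneg (α := ℝ) U.card)
      rw [neg_div] at h5 ⊢
      nlinarith
    refine h3.trans ?_
    rw [pow_succ', mul_assoc]
    exact mul_le_mul_of_nonneg_left hH (Real.exp_pos _).le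

/-- The elements of `A` nearest to a point. -/
lemma exists_near (δ : ι → ℝ) : ∀ (q : ℕ) (A : Finset ι),
    ∃ N : Finset ι, N ⊆ A ∧ N.card = min q A.card ∧ ∀ a ∈ N, ∀ b ∈ A, b ∉ N → δ a ≤ δ b := by
  intro q
  induction q with
  | zero => intro A; exact ⟨∅, empty_subset _, by simp, by simp⟩
  | succ q ih =>
    intro A
    rcases A.eq_empty_or_nonempty with rfl | hA
    · exact ⟨∅, empty_subset _, by simp, by simp⟩
    obtain ⟨e, he, hmin⟩ := A.exists_min_image δ hA
    obtain ⟨N, hN, hc, hle⟩ := ih (A.erase e)
    have heN : e ∉ N := fun h => (mem_erase.1 (hN h)).1 rfl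
    refine ⟨insert e N, insert_subset he (hN.trans (erase_subset _ _)), ?_, ?_⟩
    · rw [card_insert_of_notMem heN, hc, card_erase_of_mem he]
      have := hA.card_pos
      omega
    · intro a ha b hb hbN
      rcases mem_insert.1 ha with rfl | ha
      · exact hmin b hb
      · exact hle a ha b (mem_erase.2 ⟨fun h => hbN (by simp [h]), hb⟩)
          (fun h => hbN (mem_insert_of_mem h))

variable [Fintype ι]

/-- A set of edges of size `card ι * 2k * (j+1)` giving every pair a common hub. -/
lemma exists_hubs {k : ℕ} (hk : 1 ≤ k) (hn : Fintype.card ι < 2 ^ k) (d : ι → ι → ℝ)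
    (hsymm : ∀ x y, d x y = d y x)
    (htri : ∀ x y z, d x z ≤ d x y + d y z) :
    ∀ (j : ℕ) (A : Finset ι), A.Nonempty → A.card ≤ 2 ^ j →
      ∃ E : Finset (ι × ι), E.card ≤ Fintype.card ι * (2 * k) * (j + 1) ∧
        ∀ (x y : ι) (r : ℝ), 0 ≤ r → d x y ≤ r → ∀ (s : ℝ) (a : ι), a ∈ A → d x a ≤ s * r →
          0 ≤ s → ∃ h : ι, (x, h) ∈ E ∧ (y, h) ∈ E ∧
            d x h ≤ (s + j + 1) * r ∧ d y h ≤ (s + j + 1) * r := by
  classical
  intro j
  induction j with
  | zero =>
    intro A hA hc
    obtain ⟨e, rfl⟩ : ∃ e, A = {e} := card_eq_one.1 (le_antisymm (by simpa using hc) hA.card_pos)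
    refine ⟨univ.image fun x => (x, e), ?_, fun x y r hr hxy s a ha hxa hs => ⟨e, ?_⟩⟩
    · refine card_image_le.trans ?_
      rw [card_univ, zero_add, mul_one]
      exact Nat.le_mul_of_pos_right _ (by omega)
    · obtain rfl : a = e := mem_singleton.1 ha
      have h1 : d y a ≤ d x y + d x a := by
        have := htri y x a
        rw [hsymm y x] at this
        exact this
      refine ⟨by simp, by simp, ?_, ?_⟩ <;> push_cast <;> nlinarith
  | succ j ih =>
    intro A hA hc
    choose N hNA hNc hNle using fun x => exists_near (d x) (2 * k) A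
    set E0 : Finset (ι × ι) := univ.biUnion fun x => (N x).image fun h => (x, h) with hE0
    have hE0c : E0.card ≤ Fintype.card ι * (2 * k) := by
      refine card_biUnion_le.trans ?_
      rw [← card_univ, ← smul_eq_mul, ← sum_const]
      exact sum_le_sum fun x _ => card_image_le.trans ((hNc x).le.trans (min_le_left _ _))
    have hmemE : ∀ {x h : ι}, h ∈ N x → (x, h) ∈ E0 := fun {x h} hh =>
      mem_biUnion.2 ⟨x, mem_univ _, mem_image.2 ⟨h, hh, rfl⟩⟩
    by_cases hsmall : A.card ≤ 2 * k
    · have hall : ∀ x, N x = A := fun x => eq_of_subset_of_card_le (hNA x) (by rw [hNc x]; omega)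
      refine ⟨E0, hE0c.trans (Nat.le_mul_of_pos_right _ (by omega)),
        fun x y r hr hxy s a ha hxa hs => ⟨a, hmemE (by rwa [hall]), hmemE (by rwa [hall]), ?_, ?_⟩⟩
      all_goals
        have h1 : d y a ≤ d x y + d x a := by
          have := htri y x a
          rw [hsymm y x] at this
          exact this
        push_cast
        nlinarith
    · push Not at hsmall
      have hA2 : A.card ≤ 2 * 2 ^ j := by rw [pow_succ] at hc; omega
      obtain ⟨A', hA'A, hA'c, hA'⟩ := exists_hit A hA N (2 * k) ((A.card + 1) / 2) univ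
        fun x _ => ⟨hNA x, by rw [hNc x]; omega⟩
      have hhit : ∀ x, ¬ Disjoint (N x) A' := by
        intro x hx
        have h1 : (1:ℝ) ≤ ((univ.filter fun x => Disjoint (N x) A').card : ℝ) := by
          exact_mod_cast card_pos.2 ⟨x, by simp [hx]⟩
        have hA0 : (0:ℝ) < A.card := by exact_mod_cast hA.card_pos
        have h2 : Real.exp (-((2 * k : ℕ) : ℝ) / A.card) ^ ((A.card + 1) / 2) ≤
            Real.exp (-(((k - 1 : ℕ) : ℝ) + 1)) := by
          rw [← Real.exp_nat_mul, Real.exp_le_exp, Nat.cast_sub hk, Nat.cast_one, sub_add_cancel]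
          have h3 : (A.card : ℝ) ≤ 2 * (((A.card + 1) / 2 : ℕ) : ℝ) := by
            exact_mod_cast (by omega : A.card ≤ 2 * ((A.card + 1) / 2))
          rw [mul_div_assoc', div_le_iff₀ hA0]
          push_cast
          nlinarith [Nat.cast_nonneg (α := ℝ) k]
        have h4 : (2:ℝ) ^ k ≤ Real.exp (k:ℝ) := by
          rw [show (k:ℝ) = (k:ℕ) * 1 by simp, Real.exp_nat_mul]
          exact pow_le_pow_left₀ (by norm_num) (by linarith [Real.add_one_le_exp (1:ℝ)]) k
        have h5 : (Fintype.card ι : ℝ) < (2:ℝ) ^ k := by exact_mod_cast hn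
        rw [Nat.cast_sub hk, Nat.cast_one, sub_add_cancel, Real.exp_neg] at h2
        have h6 := hA'.trans (mul_le_mul_of_nonneg_right h2 (Nat.cast_nonneg _))
        rw [card_univ] at h6
        have h7 : (Real.exp (k:ℝ))⁻¹ * Fintype.card ι < 1 := by
          rw [inv_mul_lt_iff₀ (Real.exp_pos _), mul_one]
          linarith
        linarith
      have hA'ne : A'.Nonempty := by
        obtain ⟨z, -, hz⟩ := not_disjoint_iff.1 (hhit hA.choose)
        exact ⟨z, hz⟩
      obtain ⟨E', hE'c, hE'⟩ := ih A' hA'ne (by omega)
      refine ⟨E0 ∪ E', ?_, ?_⟩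
      · refine (card_union_le _ _).trans ?_
        rw [mul_add (Fintype.card ι * (2 * k)) (j + 1) 1, mul_one]
        omega
      intro x y r hr hxy s a ha hxa hs
      obtain ⟨z, hzN, hzA'⟩ := not_disjoint_iff.1 (hhit y)
      by_cases hboth : a ∈ N x ∧ a ∈ N y
      · refine ⟨a, mem_union_left _ (hmemE hboth.1), mem_union_left _ (hmemE hboth.2), ?_, ?_⟩
        all_goals
          have h1 : d y a ≤ d x y + d x a := by
            have := htri y x a
            rw [hsymm y x] at this
            exact this
          push_cast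
          nlinarith
      · -- some point of the next layer is close to `x` or to `y`
        by_cases hax : a ∈ N x
        · have hay : a ∉ N y := fun h => hboth ⟨hax, h⟩
          have h1 : d y z ≤ (s + 1) * r := by
            refine (hNle y z hzN a ha hay).trans ?_
            have := htri y x a
            rw [hsymm y x] at this
            nlinarith
          obtain ⟨h, h2, h3, h4, h5⟩ := hE' y x r hr (by rwa [hsymm]) (s + 1) z hzA' h1 (by linarith)
          exact ⟨h, mem_union_right _ h3, mem_union_right _ h2,
            h5.trans (le_of_eq (by push_cast; ring)), h4.trans (le_of_eq (by push_cast; ring))⟩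
        · obtain ⟨w, hwN, hwA'⟩ := not_disjoint_iff.1 (hhit x)
          have h1 : d x w ≤ s * r := (hNle x w hwN a ha hax).trans hxa
          obtain ⟨h, h2, h3, h4, h5⟩ := hE' x y r hr hxy s w hwA' h1 hs
          refine ⟨h, mem_union_right _ h2, mem_union_right _ h3, h4.trans ?_, h5.trans ?_⟩ <;>
          · push_cast
            nlinarith

end Vale.Agent.P249.Sparse
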