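import Vale.Agent.P249.Points
import Vale.Agent.P249.Sparse.Sensitivity
import Mathlib.Analysis.Complex.ExponentialBounds

namespace Vale.Agent.P249.Sparse.NearLinear

open Vale.Agent.P249 Vale.Agent.P249.Dim Vale.Agent.P249.Sparse Finset

lemma dim_arith {p e L : ℝ} {n k d : ℕ} (hp : 0 ≤ p) (he0 : 0 < e) (he1 : e ≤ 1) (hn : 2 ≤ n)
    (hk : k = Nat.log 2 n + 1) (hL0 : 0 ≤ L)
    (hL : L ≤ (2 * ((k:ℝ) + 1)) ^ p * (2 * (n * (2 * k) * (k + 1))))
    (hd : (d:ℝ) < 12 * k * L / e ^ 2 + 1) :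
    (d:ℝ) ≤ 13 * 2 * (6 ^ p * (4 * 2 * 3)) / e ^ 2 * n * (1 + Real.log n) ^ (p + 3) := by
  set l := 1 + Real.log n with hl
  have hl1 : 1 ≤ l := by rw [hl]; linarith [Real.log_natCast_nonneg n]
  have hn1 : (1:ℝ) ≤ n := by exact_mod_cast (by omega : 1 ≤ n)
  have hkl : (k:ℝ) ≤ 2 * l := by
    have h2 : (Nat.log 2 n : ℝ) * Real.log 2 ≤ Real.log n := by
      rw [← Real.log_pow]
      exact Real.log_le_log (by positivity)
        (by exact_mod_cast Nat.pow_log_le_self 2 (show n ≠ 0 by omega))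
    rw [hk, hl]; push_cast
    nlinarith [Real.log_two_gt_d9, Nat.cast_nonneg (α := ℝ) (Nat.log 2 n)]
  set T := 6 ^ p * l ^ p * ((4 * 2 * 3) * n * l ^ 2) with hT
  have hLT : L ≤ T := by
    refine hL.trans ?_
    rw [hT, ← Real.mul_rpow (by norm_num) (by linarith)]
    refine mul_le_mul (Real.rpow_le_rpow (by positivity) (by linarith) hp) ?_ (by positivity)
      (by positivity)
    have h1 : (k:ℝ) * (k + 1) ≤ 2 * l * (3 * l) :=
      mul_le_mul hkl (by linarith) (by positivity) (by positivity)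
    nlinarith [mul_le_mul_of_nonneg_left h1 (by linarith : (0:ℝ) ≤ 4 * n)]
  have hT1 : 1 ≤ T := by
    rw [hT]
    refine one_le_mul_of_one_le_of_one_le (one_le_mul_of_one_le_of_one_le
      (Real.one_le_rpow (by norm_num) hp) (Real.one_le_rpow hl1 hp)) ?_
    exact one_le_mul_of_one_le_of_one_le (by linarith) (one_le_pow₀ hl1)
  have he2 : 0 < e ^ 2 := by positivity
  have h2 : (d:ℝ) ≤ 13 * (2 * l) * T / e ^ 2 := by
    refine hd.le.trans ?_
    rw [le_div_iff₀ he2, add_mul, div_mul_cancel₀ _ he2.ne', one_mul]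
    have h3 : (k:ℝ) * L ≤ 2 * l * T := mul_le_mul hkl hLT hL0 (by positivity)
    have h4 : e ^ 2 ≤ 2 * l * T :=
      (pow_le_one₀ he0.le he1).trans (one_le_mul_of_one_le_of_one_le (by linarith) hT1)
    linarith
  refine h2.trans (le_of_eq ?_)
  have hl3 : l ^ (p + 3) = l ^ p * l ^ 3 := by
    rw [Real.rpow_add (by linarith), show (3:ℝ) = ((3:ℕ):ℝ) by norm_num, Real.rpow_natCast]
  rw [hl3, hT]
  ring

/-- For every `p ≥ 1` and `D > 1` there is `C` such that every `n`-point subset of a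
finite-dimensional `ℓ_p` space is mapped with distortion `D` into
`d ≤ C n (1 + log n) ^ (p + 3)` dimensions by selecting and rescaling coordinates. -/
theorem near_linear_dimension (p : ℝ) (hp : 1 ≤ p) (D : ℝ) (hD : 1 < D) :
    ∃ C : ℝ, ∀ (n m : ℕ) (X : Fin n → Fin m → ℝ), Function.Injective X →
      ∃ (d : ℕ) (c : Fin d → Fin m) (a : Fin d → ℝ) (s : ℝ), 0 < s ∧
        (d : ℝ) ≤ C * n * (1 + Real.log n) ^ (p + 3) ∧
        ∀ i i', s * lpDist p (X i) (X i') ≤
            lpDist p (fun j => a j * X i (c j)) (fun j => a j * X i' (c j)) ∧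
          lpDist p (fun j => a j * X i (c j)) (fun j => a j * X i' (c j)) ≤
            D * s * lpDist p (X i) (X i') := by
  have hp0 : 0 < p := by linarith
  set e := min (D - 1) 1 / 4 with he
  have he0 : 0 < e := by
    have : 0 < min (D - 1) 1 := lt_min (by linarith) one_pos
    positivity
  have he1 : e ≤ 1 / 4 := by rw [he]; linarith [min_le_right (D - 1) 1]
  have heD : 4 * e ≤ D - 1 := by rw [he]; linarith [min_le_left (D - 1) 1]
  refine ⟨13 * 2 * (6 ^ p * (4 * 2 * 3)) / e ^ 2, fun n m X hX => ?_⟩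
  rcases Nat.lt_or_ge n 2 with hn | hn
  · have : Subsingleton (Fin n) := Fin.subsingleton_iff_le_one.2 (by omega)
    have hlog : 0 ≤ 1 + Real.log n := by linarith [Real.log_natCast_nonneg n]
    refine ⟨0, Fin.elim0, Fin.elim0, 1, one_pos, by push_cast; positivity, fun i i' => ?_⟩
    obtain rfl := Subsingleton.elim i i'
    simp [lpDist, Real.zero_rpow hp0.ne', Real.zero_rpow (inv_ne_zero hp0.ne')]
  have hm : 0 < m := by
    rcases Nat.eq_zero_or_pos m with rfl | h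
    · have := hX (a₁ := (⟨0, by omega⟩ : Fin n)) (a₂ := ⟨1, by omega⟩) (funext fun i => i.elim0)
      simp at this
    · exact h
  obtain ⟨k, hk⟩ : ∃ k, k = Nat.log 2 n + 1 := ⟨_, rfl⟩
  have hk1 : 1 ≤ k := by omega
  have hnk : Fintype.card (Fin n) < 2 ^ k := by
    rw [Fintype.card_fin, hk]; exact Nat.lt_pow_succ_log_self one_lt_two n
  obtain ⟨μ, hμ0, hμsum, hpair⟩ := exists_sensitivity hp X hk1 hnk
  rw [Fintype.card_fin] at hμsum
  push_cast at hμsum
  have hm' : (0:ℝ) < m := by exact_mod_cast hm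
  have hk1' : (1:ℝ) ≤ k := by exact_mod_cast hk1
  have hn2 : (2:ℝ) ≤ n := by exact_mod_cast hn
  set M : ℝ := n * (2 * k) * (k + 1) with hM
  have hM0 : 0 < M := by positivity
  set ν : Fin m → ℝ := fun c => μ c + M / m with hν
  have hν0 : ∀ c, 0 < ν c := fun c => add_pos_of_nonneg_of_pos (hμ0 c) (by positivity)
  set K : ℝ := (2 * ((k:ℝ) + 1)) ^ p with hK
  have hK0 : 0 < K := Real.rpow_pos_of_pos (by positivity) p
  set S := ∑ c, ν c with hS
  have hS2 : S ≤ 2 * M := by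
    rw [hS]
    simp only [hν, sum_add_distrib, sum_const, card_univ, Fintype.card_fin, nsmul_eq_mul]
    rw [mul_div_cancel₀ _ hm'.ne']
    linarith
  have hS0 : 0 < S := sum_pos (fun c _ => hν0 c) ⟨⟨0, hm⟩, mem_univ _⟩
  obtain ⟨d, hd⟩ : ∃ d, d = ⌈12 * (k:ℝ) * (K * S) / e ^ 2⌉₊ := ⟨_, rfl⟩
  have hd1 : 12 * (k:ℝ) * (K * S) / e ^ 2 ≤ d := hd ▸ Nat.le_ceil _
  have hd2 : (d:ℝ) < 12 * (k:ℝ) * (K * S) / e ^ 2 + 1 := hd ▸ Nat.ceil_lt_add_one (by positivity)
  obtain ⟨c, a, hca⟩ := exists_coord_sample hp0 X hX ν hν0 hK0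
    (fun x y c => (hpair x y c).trans (mul_le_mul_of_nonneg_right
      (mul_le_mul_of_nonneg_left (le_add_of_nonneg_right (by positivity)) hK0.le) (pw_nonneg _)))
    he0 (by linarith) hS.symm hS0 (d := d) (hd ▸ Nat.ceil_pos.2 (by positivity)) hnk
    (by rwa [← div_le_iff₀ (by positivity)])
  refine ⟨d, c, a, (1 - e) ^ (1 / p), Real.rpow_pos_of_pos (by linarith) _,
    dim_arith hp0.le he0 (by linarith) hn hk (by positivity)
      (mul_le_mul_of_nonneg_left hS2 hK0.le) hd2, fun i i' => ?_⟩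
  obtain ⟨hlo, hhi⟩ := hca i i'
  have hdist : lpDist p (X i) (X i') = nm p (X i - X i') := rfl
  have hF : lpDist p (fun j => a j * X i (c j)) (fun j => a j * X i' (c j)) =
      nm p (fun j => a j * X i (c j) - a j * X i' (c j)) := rfl
  have h0 := nm_nonneg (p := p) (X i - X i')
  have hs0 : 0 ≤ (1 - e) ^ (1 / p) := Real.rpow_nonneg (by linarith) _
  have hD0 : 0 ≤ D := by linarith
  have hse : ((1 - e) ^ (1 / p)) ^ p = 1 - e := by
    rw [← Real.rpow_mul (by linarith), one_div, inv_mul_cancel₀ hp0.ne', Real.rpow_one]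
  rw [hdist, hF]
  refine ⟨le_nm hp0 (mul_nonneg hs0 h0) ?_, nm_le hp0 (by positivity) (hhi.trans ?_)⟩
  · rw [Real.mul_rpow hs0 h0, hse, nm_rpow hp0]
    exact hlo
  · rw [Real.mul_rpow (by positivity) h0, Real.mul_rpow hD0 hs0, hse, nm_rpow hp0]
    refine mul_le_mul_of_nonneg_right ?_ (pw_nonneg _)
    have h1 : D ≤ D ^ p := Real.self_le_rpow_of_one_le hD.le hp
    nlinarith

end Vale.Agent.P249.Sparse.NearLinear
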